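import Mathlib
import Vale.Agent.Lib.P328.RP.RowPerm

/-!
P328: the row form of the three-row inequality is invariant under permuting the three rows.

`rows_perm`: if the row form holds for the row sums `r ∘ σ`, then it holds for `r`.
The proof transports sums along the bijection `rperm σ : CT 3 n r c ≃ CT 3 n (r ∘ σ) c`
(row `i` of the new table is row `σ i` of the old one) and applies the hypothesis to the
functions `k ↦ g (σ k)`.
-/

namespace Vale.Agent.Lib.P328.RP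

open Finset

/-- Row form of the three-row inequality: invariance under a permutation of the rows. -/
theorem rows_perm {n : ℕ} (r : Fin 3 → ℕ) (c : Fin n → ℕ) (σ : Equiv.Perm (Fin 3))
    (H : ∀ g : Fin 3 → (Fin n → ℕ) → ℝ, (∀ k, ∑ x : CT 3 n (r ∘ σ) c, g k (x.1 k) = 0) →
      ∑ x : CT 3 n (r ∘ σ) c, (∑ k, g k (x.1 k)) ^ 2
        ≤ 2 * ∑ x : CT 3 n (r ∘ σ) c, ∑ k, g k (x.1 k) ^ 2)
    (g : Fin 3 → (Fin n → ℕ) → ℝ) (h0 : ∀ k, ∑ x : CT 3 n r c, g k (x.1 k) = 0) :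
    ∑ x : CT 3 n r c, (∑ k, g k (x.1 k)) ^ 2 ≤ 2 * ∑ x : CT 3 n r c, ∑ k, g k (x.1 k) ^ 2 := by
  have hc : ∀ k, ∑ y : CT 3 n (r ∘ σ) c, g (σ k) (y.1 k) = 0 := by
    intro k
    rw [← Equiv.sum_comp (rperm (r := r) (c := c) σ)
      (fun y : CT 3 n (r ∘ σ) c => g (σ k) (y.1 k))]
    exact h0 (σ k)
  have hH := H (fun k => g (σ k)) hc
  have e1 : ∑ y : CT 3 n (r ∘ σ) c, (∑ k, g (σ k) (y.1 k)) ^ 2
      = ∑ x : CT 3 n r c, (∑ k, g k (x.1 k)) ^ 2 := by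
    rw [← Equiv.sum_comp (rperm (r := r) (c := c) σ)
      (fun y : CT 3 n (r ∘ σ) c => (∑ k, g (σ k) (y.1 k)) ^ 2)]
    apply Finset.sum_congr rfl
    intro x _
    have : ∑ k, g (σ k) ((rperm σ x).1 k) = ∑ k, g k (x.1 k) :=
      Equiv.sum_comp σ (fun k => g k (x.1 k))
    rw [this]
  have e2 : ∑ y : CT 3 n (r ∘ σ) c, ∑ k, g (σ k) (y.1 k) ^ 2
      = ∑ x : CT 3 n r c, ∑ k, g k (x.1 k) ^ 2 := by
    rw [← Equiv.sum_comp (rperm (r := r) (c := c) σ)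
      (fun y : CT 3 n (r ∘ σ) c => ∑ k, g (σ k) (y.1 k) ^ 2)]
    apply Finset.sum_congr rfl
    intro x _
    exact Equiv.sum_comp σ (fun k => g k (x.1 k) ^ 2)
  rw [e1, e2] at hH
  exact hH

end Vale.Agent.Lib.P328.RP
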