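import Mathlib
import Vale.Agent.Lib.P328.RP.RowPerm

/-!
P328: exchangeable reduction of the row form of the three-row inequality.

For three equal row sums the tables are invariant under permuting the rows, so sums of a
function of one row (or of two different rows) do not depend on the rows chosen
(`sum_row_eq`, `sum_two_rows_eq`).  `rows_of_single` deduces the row form of the three-row
inequality from the one-function inequality `2 * sum s(x 0) s(x 1) <= sum s(x 0)^2` for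
centred `s`: the difference of the two sides of the goal is one third of the one-function
defect for `s = g 0 + g 1 + g 2` plus a sum of squares.
-/

namespace Vale.Agent.Lib.P328.RP

open Finset

section single

variable {n ρ : ℕ} {c : Fin n → ℕ}

/-- Row permutation as a self-equivalence of the tables with three equal row sums. -/
def rpermSelf (σ : Equiv.Perm (Fin 3)) :
    CT 3 n (fun _ => ρ) c ≃ CT 3 n (fun _ => ρ) c :=
  rperm (r := fun _ => ρ) (c := c) σ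

theorem rpermSelf_val (σ : Equiv.Perm (Fin 3)) (x : CT 3 n (fun _ => ρ) c) (i : Fin 3) :
    (rpermSelf σ x).1 i = x.1 (σ i) := rfl

theorem exists_perm_two : ∀ j k : Fin 3, j ≠ k →
    ∃ σ : Equiv.Perm (Fin 3), σ 0 = j ∧ σ 1 = k := by decide

/-- Sums of a function of one row do not depend on the row. -/
theorem sum_row_eq (u : (Fin n → ℕ) → ℝ) (k : Fin 3) :
    ∑ x : CT 3 n (fun _ => ρ) c, u (x.1 k) = ∑ x : CT 3 n (fun _ => ρ) c, u (x.1 0) := by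
  have h := Equiv.sum_comp (rpermSelf (ρ := ρ) (c := c) (Equiv.swap 0 k))
    (fun y : CT 3 n (fun _ => ρ) c => u (y.1 0))
  simp only [rpermSelf_val, Equiv.swap_apply_left] at h
  exact h

/-- Sums of a function of two different rows do not depend on the pair of rows. -/
theorem sum_two_rows_eq (F : (Fin n → ℕ) → (Fin n → ℕ) → ℝ) (j k : Fin 3) (hjk : j ≠ k) :
    ∑ x : CT 3 n (fun _ => ρ) c, F (x.1 j) (x.1 k)
      = ∑ x : CT 3 n (fun _ => ρ) c, F (x.1 0) (x.1 1) := by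
  obtain ⟨σ, h0, h1⟩ := exists_perm_two j k hjk
  have h := Equiv.sum_comp (rpermSelf (ρ := ρ) (c := c) σ)
    (fun y : CT 3 n (fun _ => ρ) c => F (y.1 0) (y.1 1))
  simp only [rpermSelf_val, h0, h1] at h
  exact h

end single

/-- Exchangeable reduction: for three equal row sums the row form of the three-row inequality
follows from the one-function inequality `2 E[s(X_0) s(X_1)] ≤ E[s(X_0)^2]` for centred `s`. -/
theorem rows_of_single {n ρ : ℕ} (c : Fin n → ℕ)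
    (h1 : ∀ s : (Fin n → ℕ) → ℝ, ∑ x : CT 3 n (fun _ => ρ) c, s (x.1 0) = 0 →
      2 * ∑ x : CT 3 n (fun _ => ρ) c, s (x.1 0) * s (x.1 1)
        ≤ ∑ x : CT 3 n (fun _ => ρ) c, s (x.1 0) ^ 2)
    (g : Fin 3 → (Fin n → ℕ) → ℝ)
    (h0 : ∀ k, ∑ x : CT 3 n (fun _ => ρ) c, g k (x.1 k) = 0) :
    ∑ x : CT 3 n (fun _ => ρ) c, (∑ k, g k (x.1 k)) ^ 2
      ≤ 2 * ∑ x : CT 3 n (fun _ => ρ) c, ∑ k, g k (x.1 k) ^ 2 := by
  -- basic sums
  set A0 := ∑ x : CT 3 n (fun _ => ρ) c, g 0 (x.1 0) ^ 2 with hA0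
  set A1 := ∑ x : CT 3 n (fun _ => ρ) c, g 1 (x.1 0) ^ 2 with hA1
  set A2 := ∑ x : CT 3 n (fun _ => ρ) c, g 2 (x.1 0) ^ 2 with hA2
  set M01 := ∑ x : CT 3 n (fun _ => ρ) c, g 0 (x.1 0) * g 1 (x.1 0) with hM01
  set M02 := ∑ x : CT 3 n (fun _ => ρ) c, g 0 (x.1 0) * g 2 (x.1 0) with hM02
  set M12 := ∑ x : CT 3 n (fun _ => ρ) c, g 1 (x.1 0) * g 2 (x.1 0) with hM12
  set X00 := ∑ x : CT 3 n (fun _ => ρ) c, g 0 (x.1 0) * g 0 (x.1 1) with hX00
  set X11 := ∑ x : CT 3 n (fun _ => ρ) c, g 1 (x.1 0) * g 1 (x.1 1) with hX11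
  set X22 := ∑ x : CT 3 n (fun _ => ρ) c, g 2 (x.1 0) * g 2 (x.1 1) with hX22
  set X01 := ∑ x : CT 3 n (fun _ => ρ) c, g 0 (x.1 0) * g 1 (x.1 1) with hX01
  set X02 := ∑ x : CT 3 n (fun _ => ρ) c, g 0 (x.1 0) * g 2 (x.1 1) with hX02
  set X12 := ∑ x : CT 3 n (fun _ => ρ) c, g 1 (x.1 0) * g 2 (x.1 1) with hX12
  -- symmetries
  have sA1 : ∑ x : CT 3 n (fun _ => ρ) c, g 1 (x.1 1) ^ 2 = A1 :=
    sum_row_eq (fun a => g 1 a ^ 2) 1
  have sA2 : ∑ x : CT 3 n (fun _ => ρ) c, g 2 (x.1 2) ^ 2 = A2 :=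
    sum_row_eq (fun a => g 2 a ^ 2) 2
  have sY02 : ∑ x : CT 3 n (fun _ => ρ) c, g 0 (x.1 0) * g 2 (x.1 2) = X02 :=
    sum_two_rows_eq (fun a b => g 0 a * g 2 b) 0 2 (by decide)
  have sY12 : ∑ x : CT 3 n (fun _ => ρ) c, g 1 (x.1 1) * g 2 (x.1 2) = X12 :=
    sum_two_rows_eq (fun a b => g 1 a * g 2 b) 1 2 (by decide)
  have sB0 : ∑ x : CT 3 n (fun _ => ρ) c, g 0 (x.1 1) ^ 2 = A0 :=
    sum_row_eq (fun a => g 0 a ^ 2) 1
  have sB1 : ∑ x : CT 3 n (fun _ => ρ) c, g 1 (x.1 1) ^ 2 = A1 := sA1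
  have sB2 : ∑ x : CT 3 n (fun _ => ρ) c, g 2 (x.1 1) ^ 2 = A2 :=
    sum_row_eq (fun a => g 2 a ^ 2) 1
  have sN01 : ∑ x : CT 3 n (fun _ => ρ) c, g 0 (x.1 1) * g 1 (x.1 1) = M01 :=
    sum_row_eq (fun a => g 0 a * g 1 a) 1
  have sN02 : ∑ x : CT 3 n (fun _ => ρ) c, g 0 (x.1 1) * g 2 (x.1 1) = M02 :=
    sum_row_eq (fun a => g 0 a * g 2 a) 1
  have sN12 : ∑ x : CT 3 n (fun _ => ρ) c, g 1 (x.1 1) * g 2 (x.1 1) = M12 :=
    sum_row_eq (fun a => g 1 a * g 2 a) 1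
  have sX10 : ∑ x : CT 3 n (fun _ => ρ) c, g 1 (x.1 0) * g 0 (x.1 1) = X01 := by
    have h := sum_two_rows_eq (ρ := ρ) (c := c) (fun a b => g 1 b * g 0 a) 1 0 (by decide)
    rw [h]
    exact Finset.sum_congr rfl (fun x _ => by ring)
  have sX20 : ∑ x : CT 3 n (fun _ => ρ) c, g 2 (x.1 0) * g 0 (x.1 1) = X02 := by
    have h := sum_two_rows_eq (ρ := ρ) (c := c) (fun a b => g 2 b * g 0 a) 1 0 (by decide)
    rw [h]
    exact Finset.sum_congr rfl (fun x _ => by ring)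
  have sX21 : ∑ x : CT 3 n (fun _ => ρ) c, g 2 (x.1 0) * g 1 (x.1 1) = X12 := by
    have h := sum_two_rows_eq (ρ := ρ) (c := c) (fun a b => g 2 b * g 1 a) 1 0 (by decide)
    rw [h]
    exact Finset.sum_congr rfl (fun x _ => by ring)
  -- the goal in terms of the basic sums
  have eL : ∑ x : CT 3 n (fun _ => ρ) c, (∑ k, g k (x.1 k)) ^ 2
      = A0 + A1 + A2 + 2 * X01 + 2 * X02 + 2 * X12 := by
    rw [← sA1, ← sA2, ← sY02, ← sY12, hA0, hX01]
    simp only [Finset.mul_sum, ← Finset.sum_add_distrib]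
    refine Finset.sum_congr rfl (fun x _ => ?_)
    rw [Fin.sum_univ_three]
    ring
  have eR : ∑ x : CT 3 n (fun _ => ρ) c, ∑ k, g k (x.1 k) ^ 2 = A0 + A1 + A2 := by
    rw [← sA1, ← sA2, hA0]
    simp only [← Finset.sum_add_distrib]
    refine Finset.sum_congr rfl (fun x _ => ?_)
    rw [Fin.sum_univ_three]
  -- the one-function inequality for s = g 0 + g 1 + g 2
  have hs0 : ∑ x : CT 3 n (fun _ => ρ) c, (g 0 (x.1 0) + g 1 (x.1 0) + g 2 (x.1 0)) = 0 := by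
    have z0 := h0 0
    have z1 := h0 1
    have z2 := h0 2
    rw [sum_row_eq (fun a => g 1 a) 1] at z1
    rw [sum_row_eq (fun a => g 2 a) 2] at z2
    rw [Finset.sum_add_distrib, Finset.sum_add_distrib, z0, z1, z2]
    norm_num
  have hI := h1 (fun a => g 0 a + g 1 a + g 2 a) hs0
  have eI1 : ∑ x : CT 3 n (fun _ => ρ) c,
      (g 0 (x.1 0) + g 1 (x.1 0) + g 2 (x.1 0)) * (g 0 (x.1 1) + g 1 (x.1 1) + g 2 (x.1 1))
      = X00 + X11 + X22 + 2 * X01 + 2 * X02 + 2 * X12 := by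
    have e : X00 + X11 + X22 + 2 * X01 + 2 * X02 + 2 * X12
        = X00 + X11 + X22 + (X01 + X01) + (X02 + X02) + (X12 + X12) := by ring
    rw [e]
    nth_rewrite 2 [← sX10]
    nth_rewrite 2 [← sX20]
    nth_rewrite 2 [← sX21]
    rw [hX00, hX11, hX22, hX01, hX02, hX12]
    simp only [← Finset.sum_add_distrib]
    exact Finset.sum_congr rfl (fun x _ => by ring)
  have eI2 : ∑ x : CT 3 n (fun _ => ρ) c, (g 0 (x.1 0) + g 1 (x.1 0) + g 2 (x.1 0)) ^ 2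
      = A0 + A1 + A2 + 2 * M01 + 2 * M02 + 2 * M12 := by
    rw [hA0, hA1, hA2, hM01, hM02, hM12]
    simp only [Finset.mul_sum, ← Finset.sum_add_distrib]
    exact Finset.sum_congr rfl (fun x _ => by ring)
  -- the squares
  have hsq : 0 ≤ ∑ x : CT 3 n (fun _ => ρ) c,
      ((2 * g 0 (x.1 0) - g 1 (x.1 0) - g 2 (x.1 0)
          + (2 * g 0 (x.1 1) - g 1 (x.1 1) - g 2 (x.1 1))) ^ 2
        + (2 * g 1 (x.1 0) - g 0 (x.1 0) - g 2 (x.1 0)
          + (2 * g 1 (x.1 1) - g 0 (x.1 1) - g 2 (x.1 1))) ^ 2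
        + (2 * g 2 (x.1 0) - g 0 (x.1 0) - g 1 (x.1 0)
          + (2 * g 2 (x.1 1) - g 0 (x.1 1) - g 1 (x.1 1))) ^ 2) :=
    Finset.sum_nonneg (fun x _ => by positivity)
  have eS : ∑ x : CT 3 n (fun _ => ρ) c,
      ((2 * g 0 (x.1 0) - g 1 (x.1 0) - g 2 (x.1 0)
          + (2 * g 0 (x.1 1) - g 1 (x.1 1) - g 2 (x.1 1))) ^ 2
        + (2 * g 1 (x.1 0) - g 0 (x.1 0) - g 2 (x.1 0)
          + (2 * g 1 (x.1 1) - g 0 (x.1 1) - g 2 (x.1 1))) ^ 2
        + (2 * g 2 (x.1 0) - g 0 (x.1 0) - g 1 (x.1 0)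
          + (2 * g 2 (x.1 1) - g 0 (x.1 1) - g 1 (x.1 1))) ^ 2)
      = 12 * (A0 + A1 + A2) - 12 * (M01 + M02 + M12) + 12 * (X00 + X11 + X22)
        - 12 * (X01 + X02 + X12) := by
    have e : 12 * (A0 + A1 + A2) - 12 * (M01 + M02 + M12) + 12 * (X00 + X11 + X22)
          - 12 * (X01 + X02 + X12)
        = 6 * A0 + 6 * A1 + 6 * A2 + 6 * A0 + 6 * A1 + 6 * A2
          + (-6) * M01 + (-6) * M02 + (-6) * M12 + (-6) * M01 + (-6) * M02 + (-6) * M12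
          + 12 * X00 + 12 * X11 + 12 * X22
          + (-6) * X01 + (-6) * X02 + (-6) * X12 + (-6) * X01 + (-6) * X02 + (-6) * X12 := by
      ring
    rw [e]
    nth_rewrite 2 [← sB0]
    nth_rewrite 2 [← sB1]
    nth_rewrite 2 [← sB2]
    nth_rewrite 2 [← sN01]
    nth_rewrite 2 [← sN02]
    nth_rewrite 2 [← sN12]
    nth_rewrite 2 [← sX10]
    nth_rewrite 2 [← sX20]
    nth_rewrite 2 [← sX21]
    rw [hA0, hA1, hA2, hM01, hM02, hM12, hX00, hX11, hX22, hX01, hX02, hX12]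
    simp only [Finset.mul_sum, ← Finset.sum_add_distrib]
    exact Finset.sum_congr rfl (fun x _ => by ring)
  rw [eL, eR]
  rw [eI1, eI2] at hI
  rw [eS] at hsq
  linarith


/-- `rows_of_single` for a row-sum vector `r` all of whose entries are equal to `ρ`. -/
theorem rows_of_single_const {n ρ : ℕ} (r : Fin 3 → ℕ) (hr : ∀ k, r k = ρ) (c : Fin n → ℕ)
    (h1 : ∀ s : (Fin n → ℕ) → ℝ, ∑ x : CT 3 n r c, s (x.1 0) = 0 →
      2 * ∑ x : CT 3 n r c, s (x.1 0) * s (x.1 1) ≤ ∑ x : CT 3 n r c, s (x.1 0) ^ 2)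
    (g : Fin 3 → (Fin n → ℕ) → ℝ) (h0 : ∀ k, ∑ x : CT 3 n r c, g k (x.1 k) = 0) :
    ∑ x : CT 3 n r c, (∑ k, g k (x.1 k)) ^ 2 ≤ 2 * ∑ x : CT 3 n r c, ∑ k, g k (x.1 k) ^ 2 := by
  obtain rfl : r = fun _ => ρ := funext hr
  exact rows_of_single c h1 g h0

end Vale.Agent.Lib.P328.RP
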